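import Vale.Agent.P181.GN.Defs

set_option autoImplicit false

/-!
# P181, GN Q6: the two halves
-/

open MvPolynomial

namespace Vale.Agent.P181.GN.H317

open Vale.Agent.P181.GN

variable {k : ℕ}

/-- All letters, a letter larger than `b`, more than `a` letters. -/
def gSrc (tau : Fin k → ℕ) (a b m0 : ℕ) (v : Lt k →₀ ℕ) : Prop :=
  (∀ p ∈ v.support, 1 ≤ sz p) ∧ xs v = m0 ∧ (∀ i, us v i = tau i) ∧
    (∃ p ∈ v.support, b < sz p) ∧ a < ln v

/-- **[Q6a]** from the columns to the letters. -/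
def Q6a : Prop := ∀ (k a b m0 w : ℕ) (tau : Fin k → ℕ), 3 ≤ a → a < b → w = m0 + ∑ i, tau i →
  3 * w ≤ a * b →
  T b w (k + 1) (Fin.cons m0 tau) + T a b (k + 1) (Fin.cons m0 tau) ≤
    T b b (k + 1) (Fin.cons m0 tau) + T a w (k + 1) (Fin.cons m0 tau) +
      Module.finrank ℂ (UH (gSrc tau a b m0))

/-- **[Q6b]** counting in the letter ring: the large letter `(j, alpha)` becomes `(i, alpha)` with
`i` unused, the plain letters `(j, 0)` become `(j - 1, 0)`. -/
def Q6b : Prop := ∀ (k a b m0 w : ℕ) (tau : Fin k → ℕ), a < b → w = m0 + ∑ i, tau i →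
  Module.finrank ℂ (UH (gSrc tau a b m0)) ≤
    (w + 2) ^ 6 * EL tau ((m0 : ℤ) + 6 * (∑ i, tau i : ℕ) + 4 * (w / b : ℕ) - a - b)

theorem q6_of (ha : Q6a) (hb : Q6b) : Q6 := by
  intro k a b m0 w tau h1 h2 h3 h4
  exact (ha k a b m0 w tau h1 h2 h3 h4).trans
    (Nat.add_le_add_left (hb k a b m0 w tau h2 h3) _)

end Vale.Agent.P181.GN.H317
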