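import Vale.Agent.P181.GN.H317.Q6
import Vale.Agent.P181.GN.H856.All
import Vale.Agent.P181.GN.H242.Q1
import Vale.Agent.P181.GN.H180.Q3
import Vale.Agent.P181.GN.H283.Q5
import Vale.Agent.P181.GN.H89.Fin
import Vale.Agent.P181.GN.H879.Q2b

set_option autoImplicit false

/-!
# P181, GN: the core from Q2a, all other rows plugged
-/

namespace Vale.Agent.P181.GN.H317

open Vale.Agent.P181.GN

/-- The core: only `Q2a` is left. -/
theorem core_q2a (h : H605.Q2a) : Core :=
  H856.core_of H242.q1 (H605.q2 h H879.q2b) H180.q3 H283.q5 q6 H89.q7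

end Vale.Agent.P181.GN.H317
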