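import Vale.Agent.P181.DGx.H831.Mono

set_option autoImplicit false

/-!
# P181, GN Q6a: one small column less

A symmetric translation invariant function of `t + 1` small columns none of whose monomials uses
all of them comes from `t` small columns.
-/

open MvPolynomial

namespace Vale.Agent.P181.GN.H317

open Vale.Agent.P181.T4 (HW rowOp rowOp_apply mem_HW)
open Vale.Agent.P181.DG
open Vale.Agent.P181.DGx.H831
open Vale.Agent.P181.SZT0 (rc rc_inj inj_pr coeff_rc rc_mem_HW rowOp_rc)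

variable {m t : ℕ} {σ : Type}

/-- Symmetric in the small columns. -/
def SyS (m : ℕ) (σ : Type) (t : ℕ) (f : MvPolynomial (Fin m × (σ ⊕ Fin t)) ℂ) : Prop :=
  ∀ s : Equiv.Perm (Fin t),
    rename (fun p : Fin m × (σ ⊕ Fin t) => (p.1, Sum.map (1 : Equiv.Perm σ) s p.2)) f = f

lemma rc_range' {g g' : Fin t → Fin (t + 1)} (hg : Function.Injective g)
    (hg' : Function.Injective g') (h : Set.range g = Set.range g')
    {f : MvPolynomial (Fin m × (σ ⊕ Fin t)) ℂ} (hf : SyS m σ t f) :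
    rc m (Sum.map id g' : σ ⊕ Fin t → σ ⊕ Fin (t + 1)) f = rc m (Sum.map id g) f := by
  obtain ⟨π, hπ⟩ := exists_perm_of_range hg hg' h
  have h1 := hf π
  have h2 : rc m (Sum.map id g : σ ⊕ Fin t → σ ⊕ Fin (t + 1))
      (rename (fun p : Fin m × (σ ⊕ Fin t) =>
        (p.1, Sum.map (1 : Equiv.Perm σ) π p.2)) f) = rc m (Sum.map id g') f := by
    rw [rc, rc, rename_rename]
    congr 2
    funext p
    obtain ⟨i, j⟩ := p
    rcases j with j | j
    · simp
    · simp [hπ]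
  rw [← h2, h1]

lemma rename_rc_sk' (s : Equiv.Perm (Fin (t + 1)))
    (j : Fin (t + 1)) {f : MvPolynomial (Fin m × (σ ⊕ Fin t)) ℂ} (hf : SyS m σ t f) :
    rename (fun p : Fin m × (σ ⊕ Fin (t + 1)) => (p.1, Sum.map (1 : Equiv.Perm σ) s p.2))
      (rc m (sk σ j) f) = rc m (sk σ (s j)) f := by
  have h1 := hf 1
  have h2 : rename (fun p : Fin m × (σ ⊕ Fin (t + 1)) => (p.1, Sum.map (1 : Equiv.Perm σ) s p.2))
      (rc m (sk σ j) f) = rc m (Sum.map id (fun x => s (j.succAbove x)))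
        (rename (fun p : Fin m × (σ ⊕ Fin t) =>
          (p.1, Sum.map (1 : Equiv.Perm σ) (1 : Equiv.Perm (Fin t)) p.2)) f) := by
    rw [rc, rc, rename_rename, rename_rename]
    congr 2
    funext p
    obtain ⟨i, l⟩ := p
    rcases l with l | l
    · simp [sk]
    · simp [sk]
  rw [h2, h1]
  exact rc_range' Fin.succAbove_right_injective
    (fun x y h => Fin.succAbove_right_injective (s.injective h))
    (range_perm_succAbove s j).symm hf

lemma coeff_rc_sk' {f : MvPolynomial (Fin m × (σ ⊕ Fin t)) ℂ} (hf : SyS m σ t f)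
    (v : Fin m × (σ ⊕ Fin t) →₀ ℕ) (j : Fin (t + 1)) :
    coeff (ex0 v) (rc m (sk σ j) f)
      = open scoped Classical in if ∀ i, ex0 v (i, Sum.inr j) = 0 then coeff v f else 0 := by
  classical
  split_ifs with h
  · have h1 := rename_rc_sk' (Equiv.swap j (Fin.last t)) (Fin.last t) hf
    rw [Equiv.swap_apply_right] at h1
    rw [← h1]
    have hin : Function.Injective (fun p : Fin m × (σ ⊕ Fin (t + 1)) =>
        (p.1, Sum.map (1 : Equiv.Perm σ) (Equiv.swap j (Fin.last t)) p.2)) := by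
      apply inj_pr
      exact Sum.map_injective.2 ⟨Equiv.injective _, Equiv.injective _⟩
    have h2 : Finsupp.mapDomain (fun p : Fin m × (σ ⊕ Fin (t + 1)) =>
        (p.1, Sum.map (1 : Equiv.Perm σ) (Equiv.swap j (Fin.last t)) p.2)) (ex0 v) = ex0 v := by
      ext ⟨i, l⟩
      obtain ⟨l', hl'⟩ : ∃ l', Sum.map (1 : Equiv.Perm σ) (Equiv.swap j (Fin.last t)) l' = l := by
        rcases l with l | l
        · exact ⟨Sum.inl l, by simp⟩
        · exact ⟨Sum.inr (Equiv.swap j (Fin.last t) l), by simp⟩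
      have h3 := Finsupp.mapDomain_apply hin (ex0 v) (i, l')
      simp only [hl'] at h3
      rw [h3]
      rcases l' with l' | l'
      · rw [← hl']
        simp
      · rw [← hl']
        simp only [Sum.map_inr]
        by_cases ha : l' = j
        · subst ha
          rw [Equiv.swap_apply_left, h i, ex0_last]
        · by_cases hb : l' = Fin.last t
          · subst hb
            rw [Equiv.swap_apply_right, h i, ex0_last]
          · rw [Equiv.swap_apply_of_ne_of_ne ha hb]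
    rw [← h2, coeff_rename_mapDomain _ hin, ex0]
    exact coeff_rename_mapDomain _ (inj_pr (sk_inj _)) f v
  · by_contra h1
    obtain ⟨u, hu, h4, h5⟩ := coeff_rc (sk_inj j) h1
    apply h
    intro i
    apply h5
    rintro ⟨x, hx⟩
    rcases x with x | x
    · simp [sk] at hx
    · simp only [sk, Sum.map_inr, Sum.inr.injEq] at hx
      exact Fin.succAbove_ne j x hx

lemma up_inj' {f : MvPolynomial (Fin m × (σ ⊕ Fin t)) ℂ} (hf : SyS m σ t f)
    (h : up m σ t f = 0) : f = 0 := by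
  classical
  apply MvPolynomial.ext
  intro v
  rw [coeff_zero]
  have h1 : coeff (ex0 v) (up m σ t f) = 0 := by rw [h, coeff_zero]
  rw [up_apply, coeff_sum, Finset.sum_congr rfl fun j _ => coeff_rc_sk' hf v j,
    Finset.sum_ite, Finset.sum_const_zero, add_zero, Finset.sum_const, nsmul_eq_mul,
    mul_eq_zero] at h1
  rcases h1 with h1 | h1
  · exfalso
    rw [Nat.cast_eq_zero, Finset.card_eq_zero] at h1
    have h2 : Fin.last t ∈ (Finset.univ.filter fun j : Fin (t + 1) =>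
        ∀ i, ex0 v (i, Sum.inr j) = 0) :=
      Finset.mem_filter.2 ⟨Finset.mem_univ _, fun i => ex0_last v i⟩
    rw [h1] at h2
    exact absurd h2 (Finset.notMem_empty _)
  · exact h1

/-- The number of empty small columns. -/
def nE {n : ℕ} (v : Fin m × (σ ⊕ Fin n) →₀ ℕ) : ℕ :=
  (Finset.univ.filter fun j : Fin n => ∀ i, v (i, Sum.inr j) = 0).card

lemma pInj {n : ℕ} (e : Equiv.Perm σ) (s : Equiv.Perm (Fin n)) :
    Function.Injective (fun p : Fin m × (σ ⊕ Fin n) => (p.1, Sum.map e s p.2)) :=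
  inj_pr (Sum.map_injective.2 ⟨e.injective, s.injective⟩)

lemma coeff_perm {n : ℕ} {f : MvPolynomial (Fin m × (σ ⊕ Fin n)) ℂ} (e : Equiv.Perm σ)
    (s : Equiv.Perm (Fin n))
    (hf : rename (fun p : Fin m × (σ ⊕ Fin n) => (p.1, Sum.map e s p.2)) f = f)
    (v : Fin m × (σ ⊕ Fin n) →₀ ℕ) :
    coeff (v.mapDomain (fun p : Fin m × (σ ⊕ Fin n) => (p.1, Sum.map e s p.2))) f = coeff v f := by
  conv_lhs => rw [← hf]
  exact coeff_rename_mapDomain _ (pInj e s) f v

lemma nE_perm {n : ℕ} (e : Equiv.Perm σ) (s : Equiv.Perm (Fin n))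
    (v : Fin m × (σ ⊕ Fin n) →₀ ℕ) :
    nE (v.mapDomain (fun p : Fin m × (σ ⊕ Fin n) => (p.1, Sum.map e s p.2))) = nE v := by
  unfold nE
  refine (Finset.card_equiv s fun j => ?_).symm
  rw [Finset.mem_filter, Finset.mem_filter]
  simp only [Finset.mem_univ, true_and]
  have h1 : ∀ i, v.mapDomain (fun p : Fin m × (σ ⊕ Fin n) => (p.1, Sum.map e s p.2))
      (i, Sum.inr (s j)) = v (i, Sum.inr j) := fun i =>
    Finsupp.mapDomain_apply (pInj e s) v (i, Sum.inr j)
  simp only [h1]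

/-- Remove the empty last column, divide by the number of empty columns. -/
noncomputable def dn (f : MvPolynomial (Fin m × (σ ⊕ Fin (t + 1))) ℂ) :
    MvPolynomial (Fin m × (σ ⊕ Fin t)) ℂ :=
  ∑ v ∈ f.support, if (∀ i, v (i, Sum.inr (Fin.last t)) = 0) then
    monomial (v.comapDomain (fun p : Fin m × (σ ⊕ Fin t) => (p.1, sk σ (Fin.last t) p.2))
      (inj_pr (sk_inj _)).injOn) ((nE v : ℂ)⁻¹ * coeff v f) else 0

lemma comap_ex0 (u : Fin m × (σ ⊕ Fin t) →₀ ℕ) :
    (ex0 u).comapDomain (fun p : Fin m × (σ ⊕ Fin t) => (p.1, sk σ (Fin.last t) p.2))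
      (inj_pr (sk_inj _)).injOn = u := by
  ext p
  rw [Finsupp.comapDomain_apply]
  exact Finsupp.mapDomain_apply (inj_pr (sk_inj _)) u p

lemma sk_range {n : ℕ} {v : Fin m × (σ ⊕ Fin (n + 1)) →₀ ℕ} {j : Fin (n + 1)}
    (h : ∀ i, v (i, Sum.inr j) = 0) :
    (v.support : Set (Fin m × (σ ⊕ Fin (n + 1)))) ⊆
      Set.range (fun p : Fin m × (σ ⊕ Fin n) => (p.1, sk σ j p.2)) := by
  rintro ⟨i, l⟩ hl
  rw [Finset.mem_coe, Finsupp.mem_support_iff] at hl
  rcases l with l | l
  · exact ⟨(i, Sum.inl l), rfl⟩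
  · by_cases hj : l = j
    · subst hj
      exact absurd (h i) hl
    · obtain ⟨x, hx⟩ := Fin.exists_succAbove_eq hj
      refine ⟨(i, Sum.inr x), ?_⟩
      simp [sk, hx]

lemma ex0_comap {v : Fin m × (σ ⊕ Fin (t + 1)) →₀ ℕ}
    (h : ∀ i, v (i, Sum.inr (Fin.last t)) = 0) :
    ex0 (v.comapDomain (fun p : Fin m × (σ ⊕ Fin t) => (p.1, sk σ (Fin.last t) p.2))
      (inj_pr (sk_inj _)).injOn) = v :=
  Finsupp.mapDomain_comapDomain _ (inj_pr (sk_inj _)) v (sk_range h)

lemma coeff_dn (f : MvPolynomial (Fin m × (σ ⊕ Fin (t + 1))) ℂ)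
    (u : Fin m × (σ ⊕ Fin t) →₀ ℕ) :
    coeff u (dn f) = (nE (ex0 u) : ℂ)⁻¹ * coeff (ex0 u) f := by
  classical
  rw [dn, coeff_sum]
  have h1 : ∀ v ∈ f.support, v ≠ ex0 u → coeff u (if (∀ i, v (i, Sum.inr (Fin.last t)) = 0) then
      monomial (v.comapDomain (fun p : Fin m × (σ ⊕ Fin t) => (p.1, sk σ (Fin.last t) p.2))
      (inj_pr (sk_inj _)).injOn) ((nE v : ℂ)⁻¹ * coeff v f) else 0) = 0 := by
    intro v _ hv
    split_ifs with h
    · rw [coeff_monomial, if_neg]
      intro h2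
      apply hv
      rw [← h2]
      exact (ex0_comap h).symm
    · exact coeff_zero _
  rw [Finset.sum_eq_single (ex0 u) h1]
  · rw [if_pos (fun i => ex0_last u i), coeff_monomial, if_pos (comap_ex0 u)]
  · intro h
    rw [notMem_support_iff] at h
    rw [if_pos (fun i => ex0_last u i), coeff_monomial, if_pos (comap_ex0 u), h, mul_zero]

/-- The permutation which moves the column `j` to the end. -/
def mvp (j : Fin (t + 1)) : Equiv.Perm (Fin (t + 1)) :=
  (finSuccEquiv' j).trans (finSuccEquiv' (Fin.last t)).symm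

lemma mvp_sk (j : Fin (t + 1)) (x : Fin t) :
    mvp j (j.succAbove x) = (Fin.last t).succAbove x := by
  simp [mvp]

/-- The extension of a permutation. -/
def xt (s : Equiv.Perm (Fin t)) : Equiv.Perm (Fin (t + 1)) :=
  (finSuccEquiv' (Fin.last t)).trans ((Equiv.optionCongr s).trans
    (finSuccEquiv' (Fin.last t)).symm)

lemma xt_sk (s : Equiv.Perm (Fin t)) (x : Fin t) :
    xt s ((Fin.last t).succAbove x) = (Fin.last t).succAbove (s x) := by
  unfold xt
  rw [Equiv.trans_apply, finSuccEquiv'_succAbove, Equiv.trans_apply, Equiv.optionCongr_apply,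
    Option.map_some, finSuccEquiv'_symm_some]

lemma ex0_perm (e : Equiv.Perm σ) (s : Equiv.Perm (Fin t)) (u : Fin m × (σ ⊕ Fin t) →₀ ℕ) :
    ex0 (u.mapDomain (fun p : Fin m × (σ ⊕ Fin t) => (p.1, Sum.map e s p.2))) =
      (ex0 u).mapDomain
        (fun p : Fin m × (σ ⊕ Fin (t + 1)) => (p.1, Sum.map e (xt s) p.2)) := by
  rw [ex0, ex0, ← Finsupp.mapDomain_comp, ← Finsupp.mapDomain_comp]
  congr 1
  funext p
  obtain ⟨i, l⟩ := p
  rcases l with l | l
  · simp [sk]
  · simp only [Function.comp_apply, sk, Sum.map_inr]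
    rw [xt_sk]

lemma up_dn {f : MvPolynomial (Fin m × (σ ⊕ Fin (t + 1))) ℂ} (hf : SyS m σ (t + 1) f)
    (h0 : ∀ v, coeff v f ≠ 0 → ∃ j : Fin (t + 1), ∀ i, v (i, Sum.inr j) = 0) :
    up m σ t (dn f) = f := by
  classical
  apply MvPolynomial.ext
  intro v
  have h1 : ∀ j : Fin (t + 1), coeff v (rc m (sk σ j) (dn f)) =
      if ∀ i, v (i, Sum.inr j) = 0 then (nE v : ℂ)⁻¹ * coeff v f else 0 := by
    intro j
    split_ifs with h
    · set u := v.comapDomain (fun p : Fin m × (σ ⊕ Fin t) => (p.1, sk σ j p.2))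
        (inj_pr (sk_inj _)).injOn with hu
      have h2 : u.mapDomain (fun p : Fin m × (σ ⊕ Fin t) => (p.1, sk σ j p.2)) = v :=
        Finsupp.mapDomain_comapDomain _ (inj_pr (sk_inj _)) v (sk_range h)
      have h3 : coeff v (rc m (sk σ j) (dn f)) = coeff u (dn f) := by
        conv_lhs => rw [← h2]
        exact coeff_rename_mapDomain _ (inj_pr (sk_inj _)) _ u
      have h4 : ex0 u = v.mapDomain (fun p : Fin m × (σ ⊕ Fin (t + 1)) =>
          (p.1, Sum.map (1 : Equiv.Perm σ) (mvp j) p.2)) := by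
        conv_rhs => rw [← h2]
        rw [ex0, ← Finsupp.mapDomain_comp]
        congr 1
        funext p
        obtain ⟨i, l⟩ := p
        rcases l with l | l
        · simp [sk]
        · simp only [Function.comp_apply, sk, Sum.map_inr]
          rw [mvp_sk]
      rw [h3, coeff_dn, h4, nE_perm, coeff_perm 1 (mvp j) (hf (mvp j))]
    · by_contra h2
      obtain ⟨u, hu, h4, h5⟩ := coeff_rc (sk_inj j) h2
      apply h
      intro i
      apply h5
      rintro ⟨x, hx⟩
      rcases x with x | x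
      · simp [sk] at hx
      · simp only [sk, Sum.map_inr, Sum.inr.injEq] at hx
        exact Fin.succAbove_ne j x hx
  rw [up_apply, coeff_sum, Finset.sum_congr rfl fun j _ => h1 j, Finset.sum_ite,
    Finset.sum_const_zero, add_zero, Finset.sum_const, nsmul_eq_mul]
  by_cases hv : coeff v f = 0
  · rw [hv, mul_zero, mul_zero]
  · obtain ⟨j, hj⟩ := h0 v hv
    have h2 : (nE v : ℂ) ≠ 0 := by
      rw [Nat.cast_ne_zero]
      exact Finset.card_ne_zero_of_mem (Finset.mem_filter.2 ⟨Finset.mem_univ j, hj⟩)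
    change (nE v : ℂ) * ((nE v : ℂ)⁻¹ * coeff v f) = coeff v f
    rw [← mul_assoc, mul_inv_cancel₀ h2, one_mul]

section rest

variable [Fintype σ]

lemma up_rowOp (s i : Fin m) (g : MvPolynomial (Fin m × (σ ⊕ Fin t)) ℂ) :
    rowOp s i (up m σ t g) = up m σ t (rowOp s i g) := by
  rw [up_apply, up_apply, map_sum]
  exact Finset.sum_congr rfl fun j _ => rowOp_rc (sk_inj j) s i g

omit [Fintype σ] in
lemma up_tr (i : Fin m) (g : MvPolynomial (Fin m × (σ ⊕ Fin t)) ℂ) :
    ∑ l : Fin (t + 1), pderiv (i, (Sum.inr l : σ ⊕ Fin (t + 1))) (up m σ t g) =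
      up m σ t (∑ x : Fin t, pderiv (i, (Sum.inr x : σ ⊕ Fin t)) g) := by
  have h4 : ∀ j : Fin (t + 1), ∑ l : Fin (t + 1),
      pderiv (i, (Sum.inr l : σ ⊕ Fin (t + 1))) (rc m (sk σ j) g) =
        rc m (sk σ j) (∑ x : Fin t, pderiv (i, (Sum.inr x : σ ⊕ Fin t)) g) := by
    intro j
    rw [Fin.sum_univ_succAbove _ j]
    have h5 : pderiv (i, (Sum.inr j : σ ⊕ Fin (t + 1))) (rc m (sk σ j) g) = 0 := by
      classical
      apply pderiv_eq_zero_of_notMem_vars
      intro h7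
      have h8 := vars_rename (fun p : Fin m × (σ ⊕ Fin t) => (p.1, sk σ j p.2)) g h7
      rw [Finset.mem_image] at h8
      obtain ⟨⟨a, b⟩, _, hab⟩ := h8
      have h9 : sk σ j b = Sum.inr j := congrArg Prod.snd hab
      rcases b with b | b
      · simp [sk] at h9
      · simp only [sk, Sum.map_inr, Sum.inr.injEq] at h9
        exact Fin.succAbove_ne j b h9
    have h6 : ∀ x : Fin t, pderiv (i, (Sum.inr (j.succAbove x) : σ ⊕ Fin (t + 1)))
        (rc m (sk σ j) g) = rc m (sk σ j) (pderiv (i, (Sum.inr x : σ ⊕ Fin t)) g) :=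
      fun x => pderiv_rc (sk_inj j) i (Sum.inr x) g
    rw [h5, zero_add, Finset.sum_congr rfl fun x _ => h6 x, ← map_sum]
  have h7 : ∀ l : Fin (t + 1), pderiv (i, (Sum.inr l : σ ⊕ Fin (t + 1)))
      (∑ j : Fin (t + 1), rc m (sk σ j) g)
      = ∑ j : Fin (t + 1), pderiv (i, (Sum.inr l : σ ⊕ Fin (t + 1))) (rc m (sk σ j) g) :=
    fun l => map_sum _ _ _
  rw [up_apply, up_apply, Finset.sum_congr rfl fun l _ => h7 l, Finset.sum_comm]
  exact Finset.sum_congr rfl fun j _ => h4 j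

lemma syS_rowOp (s i : Fin m) {g : MvPolynomial (Fin m × (σ ⊕ Fin t)) ℂ} (hg : SyS m σ t g) :
    SyS m σ t (rowOp s i g) := by
  intro π
  have h1 := rowOp_rc (m := m) (ι := (Sum.map (1 : Equiv.Perm σ) π : σ ⊕ Fin t → σ ⊕ Fin t))
    (Sum.map_injective.2 ⟨Equiv.injective _, π.injective⟩) s i g
  have h2 : rc m (Sum.map (1 : Equiv.Perm σ) π : σ ⊕ Fin t → σ ⊕ Fin t) g = g := hg π
  rw [h2] at h1
  exact h1.symm

omit [Fintype σ] in
lemma syS_tr (i : Fin m) {g : MvPolynomial (Fin m × (σ ⊕ Fin t)) ℂ} (hg : SyS m σ t g) :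
    SyS m σ t (∑ x : Fin t, pderiv (i, (Sum.inr x : σ ⊕ Fin t)) g) := by
  intro π
  have h2 : rc m (Sum.map (1 : Equiv.Perm σ) π : σ ⊕ Fin t → σ ⊕ Fin t) g = g := hg π
  have h3 : ∀ x : Fin t, rc m (Sum.map (1 : Equiv.Perm σ) π : σ ⊕ Fin t → σ ⊕ Fin t)
      (pderiv (i, (Sum.inr x : σ ⊕ Fin t)) g) =
        pderiv (i, (Sum.inr (π x) : σ ⊕ Fin t)) g := by
    intro x
    have h4 := pderiv_rc (m := m) (ι := (Sum.map (1 : Equiv.Perm σ) π : σ ⊕ Fin t → σ ⊕ Fin t))
      (Sum.map_injective.2 ⟨Equiv.injective _, π.injective⟩) i (Sum.inr x) g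
    rw [h2] at h4
    exact h4.symm
  change rc m (Sum.map (1 : Equiv.Perm σ) π : σ ⊕ Fin t → σ ⊕ Fin t)
    (∑ x : Fin t, pderiv (i, (Sum.inr x : σ ⊕ Fin t)) g) = _
  rw [map_sum, Finset.sum_congr rfl fun x _ => h3 x]
  exact Equiv.sum_comp π fun x => pderiv (i, (Sum.inr x : σ ⊕ Fin t)) g

lemma mem_dn {S : ℕ} {d : σ → ℕ} {mu : Fin m → ℕ}
    {f : MvPolynomial (Fin m × (σ ⊕ Fin (t + 1))) ℂ} (hf : f ∈ PKT m S σ d (t + 1) mu)
    (h0 : ∀ v, coeff v f ≠ 0 → ∃ j : Fin (t + 1), ∀ i, v (i, Sum.inr j) = 0) :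
    dn f ∈ PKT m S σ d t mu ∧ up m σ t (dn f) = f := by
  classical
  obtain ⟨k0, k1, k2, k3⟩ := mem_PKT.1 hf
  have hs : SyS m σ (t + 1) f := fun s => k2 1 s fun _ => rfl
  have hup : up m σ t (dn f) = f := up_dn hs h0
  have hsy : ∀ (e : Equiv.Perm σ) (s : Equiv.Perm (Fin t)), (∀ j, d (e j) = d j) →
      rename (fun p : Fin m × (σ ⊕ Fin t) => (p.1, Sum.map e s p.2)) (dn f) = dn f := by
    intro e s he
    apply MvPolynomial.ext
    intro u
    have h1 : (u.mapDomain (fun p : Fin m × (σ ⊕ Fin t) =>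
        (p.1, Sum.map e.symm s.symm p.2))).mapDomain
          (fun p : Fin m × (σ ⊕ Fin t) => (p.1, Sum.map e s p.2)) = u := by
      rw [← Finsupp.mapDomain_comp]
      have h2 : ((fun p : Fin m × (σ ⊕ Fin t) => (p.1, Sum.map e s p.2)) ∘
          fun p : Fin m × (σ ⊕ Fin t) => (p.1, Sum.map e.symm s.symm p.2)) = id := by
        funext p
        obtain ⟨i, l⟩ := p
        rcases l with l | l
        · simp
        · simp
      rw [h2, Finsupp.mapDomain_id]
    rw [← h1, coeff_rename_mapDomain _ (pInj e s), coeff_dn, coeff_dn, ex0_perm e s, nE_perm,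
      coeff_perm e (xt s) (k2 e (xt s) he)]
  have hs' : SyS m σ t (dn f) := fun s => hsy 1 s fun _ => rfl
  refine ⟨mem_PKT.2 ⟨mem_HW.2 ⟨?_, ?_⟩, ?_, hsy, ?_⟩, hup⟩
  · intro u hu i
    rw [coeff_dn] at hu
    have h1 := (mem_HW.1 k0).1 _ (right_ne_zero_of_mul hu) i
    rw [← h1, Fintype.sum_sum_type, Fintype.sum_sum_type, Fin.sum_univ_castSucc (n := t)]
    have h2 : ∀ l, ex0 u (i, sk σ (Fin.last t) l) = u (i, l) := fun l =>
      Finsupp.mapDomain_apply (inj_pr (sk_inj _)) u (i, l)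
    have h3 : ∀ x : Fin t, ex0 u (i, Sum.inr (Fin.castSucc x)) = u (i, Sum.inr x) := by
      intro x
      have h4 := h2 (Sum.inr x)
      simp only [sk, Sum.map_inr, Fin.succAbove_last] at h4
      exact h4
    have h5 : ∀ x : σ, ex0 u (i, Sum.inl x) = u (i, Sum.inl x) := fun x => h2 (Sum.inl x)
    rw [ex0_last, add_zero, Finset.sum_congr rfl fun x _ => h3 x,
      Finset.sum_congr rfl fun x _ => h5 x]
  · intro s i hsi
    apply up_inj' (syS_rowOp s i hs')
    rw [← up_rowOp, hup]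
    exact (mem_HW.1 k0).2 s i hsi
  · intro u hu
    rw [coeff_dn] at hu
    have h1 := k1 _ (right_ne_zero_of_mul hu)
    have h2 : ∀ i l, ex0 u (i, sk σ (Fin.last t) l) = u (i, l) := fun i l =>
      Finsupp.mapDomain_apply (inj_pr (sk_inj _)) u (i, l)
    refine ⟨fun j => ?_, fun j => ?_⟩
    · rw [← h1.1 j]
      exact Finset.sum_congr rfl fun i _ => (h2 i (Sum.inl j)).symm
    · have h3 := h1.2 ((Fin.last t).succAbove j)
      have h4 : ∑ i, ex0 u (i, Sum.inr ((Fin.last t).succAbove j)) = ∑ i, u (i, Sum.inr j) :=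
        Finset.sum_congr rfl fun i _ => h2 i (Sum.inr j)
      rw [h4] at h3
      exact h3
  · intro i
    apply up_inj' (syS_tr i hs')
    rw [← up_tr, hup]
    exact k3 i

end rest

end Vale.Agent.P181.GN.H317
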