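import Vale.Agent.P181.GN.H312.Q4
import Vale.Agent.P181.GN.H317.Lit
import Vale.Agent.P181.GN.H317.Down

set_option autoImplicit false

/-!
# P181, GN Q6a: the letters of the monomials which use all columns
-/

open MvPolynomial

namespace Vale.Agent.P181.GN.H317

open Vale.Agent.P181.GN
open Vale.Agent.P181.T4 (HW rowOp rowOp_apply mem_HW)
open Vale.Agent.P181.GN.H312 (cs cs_add cs_single mv cs_mv mv_apply_ne mv_apply rowOp_mon Fh
  Fh_single)

variable {k : ℕ} {τ : Type} [Fintype τ]

/-- The letter of a column. -/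
def lt (w : Fin (k + 1) × τ →₀ ℕ) (j : τ) : Lt k := (w (0, j), fun i => w (i.succ, j))

omit [Fintype τ] in
lemma sz_lt (w : Fin (k + 1) × τ →₀ ℕ) (j : τ) : sz (lt w j) = cs w j := by
  unfold sz cs lt
  rw [Fin.sum_univ_succ]

/-- The content. -/
noncomputable def ct (w : Fin (k + 1) × τ →₀ ℕ) : Lt k →₀ ℕ :=
  ∑ j : τ, Finsupp.single (lt w j) 1

lemma mon_ct (w : Fin (k + 1) × τ →₀ ℕ) :
    (monomial (ct w) 1 : Po k) = ∏ j, X (lt w j) := by
  unfold ct
  rw [monomial_sum_one]
  rfl

/-- All columns are used. -/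
def full (w : Fin (k + 1) × τ →₀ ℕ) : Prop := ∀ j : τ, cs w j ≠ 0

open Classical in
/-- The letter polynomial. -/
noncomputable def Lf (k : ℕ) (τ : Type) [Fintype τ] :
    MvPolynomial (Fin (k + 1) × τ) ℂ →ₗ[ℂ] Po k :=
  (basisMonomials _ ℂ).constr ℂ fun w => if full w then monomial (ct w) 1 else 0

open Classical in
lemma Lf_monomial (w : Fin (k + 1) × τ →₀ ℕ) (r : ℂ) :
    Lf k τ (monomial w r) = if full w then monomial (ct w) r else 0 := by
  have h : monomial w r = r • basisMonomials (Fin (k + 1) × τ) ℂ w := by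
    rw [coe_basisMonomials, smul_monomial, smul_eq_mul, mul_one]
  rw [h, map_smul, Lf, Module.Basis.constr_basis]
  by_cases hw : full w
  · rw [if_pos hw, if_pos hw, smul_monomial, smul_eq_mul, mul_one]
  · rw [if_neg hw, if_neg hw, smul_zero]

lemma der_prod' {ι : Type} [DecidableEq ι] (D : Derivation ℂ (Po k) (Po k)) (S : Finset ι)
    (g : ι → Po k) : D (∏ c ∈ S, g c) = ∑ c ∈ S, D (g c) * ∏ c' ∈ S.erase c, g c' := by
  induction S using Finset.induction_on with
  | empty => rw [Finset.prod_empty, Finset.sum_empty, Derivation.map_one_eq_zero]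
  | insert a S ha ih =>
    rw [Finset.prod_insert ha, Finset.sum_insert ha, Derivation.leibniz, ih,
      Finset.erase_insert ha, smul_eq_mul, smul_eq_mul, add_comm, mul_comm _ (D (g a)),
      Finset.mul_sum]
    congr 1
    refine Finset.sum_congr rfl fun c hc => ?_
    have h : c ≠ a := fun h => ha (h ▸ hc)
    rw [Finset.erase_insert_of_ne h.symm,
      Finset.prod_insert (fun h' => ha (Finset.mem_of_mem_erase h'))]
    ring

omit [Fintype τ] in
lemma lt_mv [DecidableEq τ] (w : Fin (k + 1) × τ →₀ ℕ) (r i : Fin k) (j j' : τ) :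
    lt (mv w r.succ i.succ j) j' =
      if j' = j then ((lt w j).1, (lt w j).2 - Pi.single i 1 + Pi.single r 1) else lt w j' := by
  classical
  by_cases hj : j' = j
  · subst hj
    rw [if_pos rfl]
    refine Prod.ext ?_ ?_
    · change mv w r.succ i.succ j' (0, j') = w (0, j')
      rw [mv_apply, if_neg (Fin.succ_ne_zero i).symm, if_neg (Fin.succ_ne_zero r).symm]
      omega
    · funext i'
      change mv w r.succ i.succ j' (i'.succ, j') =
        w (i'.succ, j') - (Pi.single i 1 : Fin k → ℕ) i' + (Pi.single r 1 : Fin k → ℕ) i'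
      rw [mv_apply]
      simp only [Fin.succ_inj, Pi.single_apply]
  · rw [if_neg hj]
    refine Prod.ext ?_ ?_
    · exact mv_apply_ne _ _ _ _ _ _ hj
    · funext i'
      exact mv_apply_ne _ _ _ _ _ _ hj

lemma Lf_row (r i : Fin k) (f : MvPolynomial (Fin (k + 1) × τ) ℂ) :
    Lf k τ (rowOp r.succ i.succ f) = EU r i (Lf k τ f) := by
  classical
  have key : (Lf k τ) ∘ₗ (rowOp r.succ i.succ) = (EU r i).toLinearMap ∘ₗ (Lf k τ) := by
    apply (basisMonomials (Fin (k + 1) × τ) ℂ).ext
    intro w
    rw [coe_basisMonomials, LinearMap.comp_apply, LinearMap.comp_apply, rowOp_mon, map_sum,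
      Lf_monomial]
    simp only [Lf_monomial]
    have hfull : ∀ j, w (i.succ, j) ≠ 0 → (full (mv w r.succ i.succ j) ↔ full w) := by
      intro j hj
      unfold full
      refine forall_congr' fun j' => ?_
      rw [cs_mv _ _ _ _ _ hj]
    by_cases hw : full w
    · rw [if_pos hw, mon_ct]
      change _ = EU r i (∏ j, X (lt w j))
      rw [der_prod']
      apply Finset.sum_congr rfl
      intro j _
      have h2 : EU r i (X (lt w j)) = ((w (i.succ, j) : ℕ) : ℂ) •
          (X ((lt w j).1, (lt w j).2 - Pi.single i 1 + Pi.single r 1) : Po k) := by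
        rw [EU, mkDerivation_X]
        rfl
      rw [h2]
      by_cases hj : w (i.succ, j) = 0
      · rw [hj, Nat.cast_zero, zero_smul, zero_mul]
        split_ifs
        · rw [map_zero]
        · rfl
      · rw [if_pos ((hfull j hj).2 hw)]
        have h1 : (monomial (ct (mv w r.succ i.succ j)) ((w (i.succ, j) : ℕ) : ℂ) :
            Po k) = ((w (i.succ, j) : ℕ) : ℂ) •
              monomial (ct (mv w r.succ i.succ j)) 1 := by
          rw [smul_monomial, smul_eq_mul, mul_one]
        rw [h1, mon_ct, smul_mul_assoc, ← Finset.mul_prod_erase _ _ (Finset.mem_univ j),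
          lt_mv, if_pos rfl]
        congr 2
        refine Finset.prod_congr rfl fun c hc => ?_
        rw [lt_mv, if_neg (Finset.ne_of_mem_erase hc)]
    · rw [if_neg hw]
      have h1 : ∀ j : τ, (if full (mv w r.succ i.succ j) then
          (monomial (ct (mv w r.succ i.succ j)) ((w (i.succ, j) : ℕ) : ℂ) : Po k) else 0) = 0 := by
        intro j
        by_cases hj : w (i.succ, j) = 0
        · rw [hj, Nat.cast_zero]
          split_ifs
          · rw [map_zero]
          · rfl
        · rw [if_neg]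
          intro hg
          exact hw ((hfull j hj).1 hg)
      rw [Finset.sum_eq_zero (fun j _ => h1 j)]
      exact (map_zero (EU r i).toLinearMap).symm
  exact LinearMap.congr_fun key f

/-! ### contents -/

lemma Fh_ct (h : Lt k → ℕ) (w : Fin (k + 1) × τ →₀ ℕ) :
    Fh h (ct w) = ∑ j, h (lt w j) := by
  unfold ct
  rw [map_sum]
  exact Finset.sum_congr rfl fun j _ => Fh_single _ _

lemma xs_ct (w : Fin (k + 1) × τ →₀ ℕ) : xs (ct w) = ∑ j, w (0, j) := by
  change Fh (fun p => p.1) (ct w) = _
  rw [Fh_ct]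
  rfl

lemma us_ct (w : Fin (k + 1) × τ →₀ ℕ) (i : Fin k) : us (ct w) i = ∑ j, w (i.succ, j) := by
  change Fh (fun p => p.2 i) (ct w) = _
  rw [Fh_ct]
  rfl

lemma ln_ct (w : Fin (k + 1) × τ →₀ ℕ) : ln (ct w) = Fintype.card τ := by
  have h : ln (ct w) = Fh (fun _ => 1) (ct w) := by
    change (ct w).sum (fun _ n => n) = (ct w).sum (fun _ c => c * 1)
    simp only [mul_one]
  rw [h, Fh_ct, Finset.sum_const, smul_eq_mul, mul_one, Finset.card_univ]

/-- The multiset of the letters. -/
lemma tm_ct (w : Fin (k + 1) × τ →₀ ℕ) :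
    Finsupp.toMultiset (ct w) = Finset.univ.val.map (lt w) := by
  unfold ct
  rw [map_sum]
  simp only [Finsupp.toMultiset_single, one_smul]
  rw [← Multiset.sum_map_singleton (Multiset.map (lt w) Finset.univ.val), Multiset.map_map]
  rfl

open scoped Classical in
lemma ct_apply (w : Fin (k + 1) × τ →₀ ℕ) (p : Lt k) :
    ct w p = (Finset.univ.filter fun j : τ => lt w j = p).card := by
  rw [ct, Finsupp.finsetSum_apply, Finset.card_filter]
  exact Finset.sum_congr rfl fun j _ => Finsupp.single_apply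

lemma exists_of_mem_ct {w : Fin (k + 1) × τ →₀ ℕ} {p : Lt k}
    (hp : p ∈ (ct w).support) : ∃ j, lt w j = p := by
  classical
  rw [Finsupp.mem_support_iff, ct_apply, Finset.card_ne_zero] at hp
  obtain ⟨j, hj⟩ := hp
  exact ⟨j, (Finset.mem_filter.1 hj).2⟩

lemma coeff_Lf (f : MvPolynomial (Fin (k + 1) × τ) ℂ) (v : Lt k →₀ ℕ) :
    coeff v (Lf k τ f) = ∑ w ∈ f.support, open Classical in
      if full w ∧ ct w = v then coeff w f else 0 := by
  classical
  conv_lhs => rw [← support_sum_monomial_coeff f]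
  rw [map_sum, coeff_sum]
  refine Finset.sum_congr rfl fun w _ => ?_
  rw [Lf_monomial]
  by_cases hw : full w
  · rw [if_pos hw, coeff_monomial]
    by_cases hv : ct w = v
    · rw [if_pos hv, if_pos ⟨hw, hv⟩]
    · rw [if_neg hv, if_neg (fun h => hv h.2)]
  · rw [if_neg hw, if_neg (fun h => hw h.1), coeff_zero]

/-- If the coefficients of the used-up monomials only depend on the content, the letters determine
them. -/
lemma Lf_zero {f : MvPolynomial (Fin (k + 1) × τ) ℂ} (h : Lf k τ f = 0)
    (hc : ∀ u w, full u → full w → coeff u f ≠ 0 → coeff w f ≠ 0 → ct u = ct w →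
      coeff u f = coeff w f) {w : Fin (k + 1) × τ →₀ ℕ} (hw : full w) : coeff w f = 0 := by
  classical
  by_contra hcw
  have h1 : coeff (ct w) (Lf k τ f) = 0 := by rw [h, coeff_zero]
  rw [coeff_Lf, ← Finset.sum_filter] at h1
  rw [Finset.sum_congr rfl (fun u hu => hc u w (Finset.mem_filter.1 hu).2.1 hw
    (mem_support_iff.1 (Finset.mem_filter.1 hu).1) hcw (Finset.mem_filter.1 hu).2.2),
    Finset.sum_const, nsmul_eq_mul] at h1
  refine hcw ((mul_eq_zero.1 h1).resolve_left (Nat.cast_ne_zero.2 ?_))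
  apply Finset.card_ne_zero_of_mem (a := w)
  rw [Finset.mem_filter, mem_support_iff]
  exact ⟨hcw, hw, rfl⟩

end Vale.Agent.P181.GN.H317
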