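import Vale.Agent.P181.GN.H317.Q6a
import Vale.Agent.P181.GN.H481.Q6b
import Vale.Agent.P181.GN.H820.FD
import Vale.Agent.P181.GN.H787.Q8

set_option autoImplicit false

/-!
# P181, GN: row Q6
-/

namespace Vale.Agent.P181.GN.H317

open Vale.Agent.P181.GN

/-- **[Q6]** -/
theorem q6 : Q6 := q6_of q6a (H481.q6b H820.fd (H787.q8m H820.fd))

end Vale.Agent.P181.GN.H317
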