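import Vale.Agent.P181.GN.H317.Col
import Vale.Agent.P181.DG7.Flow
import Vale.Agent.P181.DG2.H398.Up
import Vale.Agent.P181.DU.H556.Low

set_option autoImplicit false

/-!
# P181, GN Q6a: from the columns to the letters
-/

open MvPolynomial

namespace Vale.Agent.P181.GN.H317

open Vale.Agent.P181.GN
open Vale.Agent.P181.T4 (HW rowOp rowOp_apply mem_HW)
open Vale.Agent.P181.SZ (TI mem_TI)
open Vale.Agent.P181.DG (PKT NT KT)
open Vale.Agent.P181.DGx.H831 (mem_PKT up)
open Vale.Agent.P181.GN.H312 (cs Fh fd_UH exists_fin Fh_sz)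

variable {k : ℕ}

/-! ### dimensions of `UH` -/

lemma fd_of {tau : Fin k → ℕ} {m0 : ℕ} (P : (Lt k →₀ ℕ) → Prop)
    (h : ∀ v, P v → (∀ p ∈ v.support, 1 ≤ sz p) ∧ xs v = m0 ∧ ∀ i, us v i = tau i) :
    FiniteDimensional ℂ (UH P) := by
  obtain ⟨S, hS⟩ := exists_fin k (m0 + ∑ i, tau i)
  apply fd_UH _ S
  intro v hv
  obtain ⟨h1, h2, h3⟩ := h v hv
  apply hS v h1
  have h4 : ∑ i, us v i = ∑ i, tau i := Finset.sum_congr rfl (fun i _ => h3 i)
  rw [Fh_sz, h4]
  omega

lemma UH_le {P Q : (Lt k →₀ ℕ) → Prop} (h : ∀ v, P v → Q v) : UH P ≤ UH Q :=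
  fun _ hf => ⟨fun v hv => h v (hf.1 v hv), hf.2⟩

lemma UH_disj {P Q : (Lt k →₀ ℕ) → Prop} (h : ∀ v, P v → Q v → False) :
    UH P ⊓ UH Q = ⊥ := by
  rw [eq_bot_iff]
  intro f hf
  rw [Submodule.mem_bot]
  apply MvPolynomial.ext
  intro v
  rw [coeff_zero]
  by_contra hv
  exact h v (hf.1.1 v hv) (hf.2.1 v hv)

lemma UH_add {P Q R : (Lt k →₀ ℕ) → Prop} (hR : FiniteDimensional ℂ (UH R))
    (h1 : ∀ v, P v → R v) (h2 : ∀ v, Q v → R v) (hd : ∀ v, P v → Q v → False) :
    Module.finrank ℂ (UH P) + Module.finrank ℂ (UH Q) ≤ Module.finrank ℂ (UH R) := by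
  have : FiniteDimensional ℂ (UH P) := Submodule.finiteDimensional_of_le (UH_le h1)
  have : FiniteDimensional ℂ (UH Q) := Submodule.finiteDimensional_of_le (UH_le h2)
  have h3 := Submodule.finrank_sup_add_finrank_inf_eq (UH P) (UH Q)
  rw [UH_disj hd, finrank_bot, add_zero] at h3
  rw [← h3]
  exact Submodule.finrank_mono (sup_le (UH_le h1) (UH_le h2))

lemma UH_sum {ι : Type} (P : ι → (Lt k →₀ ℕ) → Prop) {R : (Lt k →₀ ℕ) → Prop}
    (hR : FiniteDimensional ℂ (UH R)) (I : Finset ι) (h : ∀ x ∈ I, ∀ v, P x v → R v)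
    (hd : ∀ x ∈ I, ∀ y ∈ I, x ≠ y → ∀ v, P x v → P y v → False) :
    ∑ x ∈ I, Module.finrank ℂ (UH (P x)) ≤ Module.finrank ℂ (UH R) := by
  classical
  have key : ∑ x ∈ I, Module.finrank ℂ (UH (P x)) ≤
      Module.finrank ℂ (UH fun v => ∃ x ∈ I, P x v) := by
    induction I using Finset.induction_on with
    | empty => simp
    | insert a I ha ih =>
      rw [Finset.sum_insert ha]
      have h1 := ih (fun x hx => h x (Finset.mem_insert_of_mem hx))
        (fun x hx y hy => hd x (Finset.mem_insert_of_mem hx) y (Finset.mem_insert_of_mem hy))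
      have hfd : FiniteDimensional ℂ (UH fun v => ∃ x ∈ insert a I, P x v) :=
        Submodule.finiteDimensional_of_le (S₂ := UH R)
          (UH_le fun v ⟨x, hx, hv⟩ => h x hx v hv)
      refine (Nat.add_le_add_left h1 _).trans (UH_add hfd ?_ ?_ ?_)
      · exact fun v hv => ⟨a, Finset.mem_insert_self a I, hv⟩
      · exact fun v ⟨x, hx, hv⟩ => ⟨x, Finset.mem_insert_of_mem hx, hv⟩
      · rintro v hv ⟨x, hx, hxv⟩
        refine hd a (Finset.mem_insert_self a I) x (Finset.mem_insert_of_mem hx) ?_ v hv hxv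
        rintro rfl
        exact ha hx
  exact key.trans (Submodule.finrank_mono (UH_le fun v ⟨x, hx, hv⟩ => h x hx v hv))

/-! ### the pieces -/

/-- The sizes `≥ S`. -/
noncomputable def big (S : ℕ) (v : Lt k →₀ ℕ) : Multiset ℕ :=
  ((Finsupp.toMultiset v).map sz).filter (S ≤ ·)

/-- The sizes `≥ S` are `kap`, and there are `n` letters of sizes `< S`. -/
def gQ (tau : Fin k → ℕ) (m0 S : ℕ) (kap : Multiset ℕ) (n : ℕ) (v : Lt k →₀ ℕ) : Prop :=
  (∀ p ∈ v.support, 1 ≤ sz p) ∧ xs v = m0 ∧ (∀ i, us v i = tau i) ∧ big S v = kap ∧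
    ln v = Multiset.card kap + n

section pieces

variable {S n m0 : ℕ} {σ : Type} [Fintype σ] {d : σ → ℕ} {tau : Fin k → ℕ}

lemma cs_inl {f : MvPolynomial (Fin (k + 1) × (σ ⊕ Fin n)) ℂ}
    (hf : f ∈ PKT (k + 1) S σ d n (Fin.cons m0 tau)) {w : Fin (k + 1) × (σ ⊕ Fin n) →₀ ℕ}
    (hw : coeff w f ≠ 0) (j : σ) : cs w (Sum.inl j) = d j := ((mem_PKT.1 hf).2.1 w hw).1 j

lemma cs_inr {f : MvPolynomial (Fin (k + 1) × (σ ⊕ Fin n)) ℂ}
    (hf : f ∈ PKT (k + 1) S σ d n (Fin.cons m0 tau)) {w : Fin (k + 1) × (σ ⊕ Fin n) →₀ ℕ}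
    (hw : coeff w f ≠ 0) (j : Fin n) : cs w (Sum.inr j) < S := ((mem_PKT.1 hf).2.1 w hw).2 j

lemma Lf_mem (hd : ∀ j, S ≤ d j) {f : MvPolynomial (Fin (k + 1) × (σ ⊕ Fin n)) ℂ}
    (hf : f ∈ PKT (k + 1) S σ d n (Fin.cons m0 tau)) :
    Lf k (σ ⊕ Fin n) f ∈ UH (gQ tau m0 S (Finset.univ.val.map d) n) := by
  classical
  obtain ⟨h0, h1, h2, h3⟩ := mem_PKT.1 hf
  rw [mem_UH]
  refine ⟨fun v hv => ?_, fun r i hri => ?_⟩
  · rw [coeff_Lf] at hv
    obtain ⟨w, _, hw⟩ := Finset.exists_ne_zero_of_sum_ne_zero hv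
    have hgw : full w ∧ ct w = v := by
      by_contra hcon
      rw [if_neg hcon] at hw
      exact hw rfl
    rw [if_pos hgw] at hw
    obtain ⟨hg, rfl⟩ := hgw
    refine ⟨fun p hp => ?_, ?_, fun i => ?_, ?_, ?_⟩
    · obtain ⟨j, rfl⟩ := exists_of_mem_ct hp
      rw [sz_lt]
      exact Nat.one_le_iff_ne_zero.2 (hg j)
    · rw [xs_ct, (mem_HW.1 h0).1 w hw 0, Fin.cons_zero]
    · rw [us_ct, (mem_HW.1 h0).1 w hw i.succ, Fin.cons_succ]
    · unfold big
      rw [tm_ct, Multiset.map_map, ← Finset.univ_disjSum_univ, Finset.val_disjSum,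
        Multiset.disjSum, Multiset.map_add, Multiset.map_map, Multiset.map_map,
        Multiset.filter_add, Multiset.filter_eq_self.2, Multiset.filter_eq_nil.2, add_zero]
      · exact Multiset.map_congr rfl fun j _ => (sz_lt w _).trans (cs_inl hf hw j)
      · intro x hx
        obtain ⟨j, _, rfl⟩ := Multiset.mem_map.1 hx
        have h4 : sz (lt w (Sum.inr j)) < S := (sz_lt w _).trans_lt (cs_inr hf hw j)
        exact not_le.2 h4
      · intro x hx
        obtain ⟨j, _, rfl⟩ := Multiset.mem_map.1 hx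
        have h4 : sz (lt w (Sum.inl j)) = d j := (sz_lt w _).trans (cs_inl hf hw j)
        change S ≤ sz (lt w (Sum.inl j))
        rw [h4]
        exact hd j
    · rw [ln_ct, Fintype.card_sum, Fintype.card_fin, Multiset.card_map]
      rfl
  · rw [← Lf_row, (mem_HW.1 h0).2 r.succ i.succ (Fin.succ_lt_succ_iff.2 hri), map_zero]

lemma coeff_eq (hd : ∀ j, S ≤ d j) {f : MvPolynomial (Fin (k + 1) × (σ ⊕ Fin n)) ℂ}
    (hf : f ∈ PKT (k + 1) S σ d n (Fin.cons m0 tau))
    {u w : Fin (k + 1) × (σ ⊕ Fin n) →₀ ℕ} (hu : coeff u f ≠ 0) (hw : coeff w f ≠ 0)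
    (h : ct u = ct w) : coeff u f = coeff w f := by
  classical
  have hsplit : ∀ (x : Fin (k + 1) × (σ ⊕ Fin n) →₀ ℕ) (p : Lt k), ct x p =
      Fintype.card {c : σ // lt x (Sum.inl c) = p} +
        Fintype.card {j : Fin n // lt x (Sum.inr j) = p} := by
    intro x p
    rw [ct_apply, Finset.card_filter, Fintype.sum_sum_type, Fintype.card_subtype,
      Fintype.card_subtype, Finset.card_filter, Finset.card_filter]
  have hl : ∀ (x : Fin (k + 1) × (σ ⊕ Fin n) →₀ ℕ), coeff x f ≠ 0 → ∀ p : Lt k, sz p < S →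
      Fintype.card {c : σ // lt x (Sum.inl c) = p} = 0 := by
    intro x hx p hp
    rw [Fintype.card_eq_zero_iff]
    refine ⟨fun c => ?_⟩
    have h1 : sz (lt x (Sum.inl c.1)) = d c.1 := (sz_lt x _).trans (cs_inl hf hx c.1)
    rw [c.2] at h1
    have h2 := hd c.1
    omega
  have hr : ∀ (x : Fin (k + 1) × (σ ⊕ Fin n) →₀ ℕ), coeff x f ≠ 0 → ∀ p : Lt k, S ≤ sz p →
      Fintype.card {c : Fin n // lt x (Sum.inr c) = p} = 0 := by
    intro x hx p hp
    rw [Fintype.card_eq_zero_iff]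
    refine ⟨fun c => ?_⟩
    have h1 : sz (lt x (Sum.inr c.1)) < S := (sz_lt x _).trans_lt (cs_inr hf hx c.1)
    rw [c.2] at h1
    omega
  have hc1 : ∀ p : Lt k, Fintype.card {c : σ // lt u (Sum.inl c) = p} =
      Fintype.card {c : σ // lt w (Sum.inl c) = p} := by
    intro p
    by_cases hp : sz p < S
    · rw [hl u hu p hp, hl w hw p hp]
    · have h1 := hsplit u p
      have h2 := hsplit w p
      rw [hr u hu p (not_lt.1 hp)] at h1
      rw [hr w hw p (not_lt.1 hp)] at h2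
      rw [h] at h1
      omega
  have hc2 : ∀ p : Lt k, Fintype.card {c : Fin n // lt u (Sum.inr c) = p} =
      Fintype.card {c : Fin n // lt w (Sum.inr c) = p} := by
    intro p
    have h1 := hsplit u p
    have h2 := hsplit w p
    have h3 := hc1 p
    rw [h] at h1
    omega
  let e : Equiv.Perm σ := Equiv.ofFiberEquiv (f := fun c : σ => lt u (Sum.inl c))
    (g := fun c : σ => lt w (Sum.inl c)) fun p => Fintype.equivOfCardEq (hc1 p)
  have he : ∀ c, lt w (Sum.inl (e c)) = lt u (Sum.inl c) := fun c =>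
    Equiv.ofFiberEquiv_map (f := fun c : σ => lt u (Sum.inl c))
      (g := fun c : σ => lt w (Sum.inl c)) (fun p => Fintype.equivOfCardEq (hc1 p)) c
  let s : Equiv.Perm (Fin n) := Equiv.ofFiberEquiv (f := fun c : Fin n => lt u (Sum.inr c))
    (g := fun c : Fin n => lt w (Sum.inr c)) fun p => Fintype.equivOfCardEq (hc2 p)
  have hs : ∀ c, lt w (Sum.inr (s c)) = lt u (Sum.inr c) := fun c =>
    Equiv.ofFiberEquiv_map (f := fun c : Fin n => lt u (Sum.inr c))
      (g := fun c : Fin n => lt w (Sum.inr c)) (fun p => Fintype.equivOfCardEq (hc2 p)) c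
  have hde : ∀ c, d (e c) = d c := by
    intro c
    rw [← cs_inl hf hw (e c), ← cs_inl hf hu c, ← sz_lt, ← sz_lt, he c]
  have h2 : u.mapDomain (fun p : Fin (k + 1) × (σ ⊕ Fin n) => (p.1, Sum.map e s p.2)) = w := by
    have h4 : ∀ c, lt w (Sum.map e s c) = lt u c := by
      rintro (c | c)
      · exact he c
      · exact hs c
    ext ⟨i, c⟩
    obtain ⟨c', hc'⟩ : ∃ c', Sum.map e s c' = c := by
      rcases c with c | c
      · obtain ⟨c', rfl⟩ := e.surjective c
        exact ⟨Sum.inl c', rfl⟩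
      · obtain ⟨c', rfl⟩ := s.surjective c
        exact ⟨Sum.inr c', rfl⟩
    subst hc'
    have h3 := Finsupp.mapDomain_apply (pInj e s) u (i, c')
    rw [show ((i, Sum.map e s c') : Fin (k + 1) × (σ ⊕ Fin n)) =
      (fun p : Fin (k + 1) × (σ ⊕ Fin n) => (p.1, Sum.map e s p.2)) (i, c') from rfl, h3]
    refine Fin.cases ?_ (fun i' => ?_) i
    · exact (congrArg Prod.fst (h4 c')).symm
    · exact (congrFun (congrArg Prod.snd (h4 c')) i').symm
  rw [← h2]
  exact (coeff_perm e s ((mem_PKT.1 hf).2.2.1 e s hde) u).symm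

/-- One small column less. -/
lemma step (hS : 1 ≤ S) (hd : ∀ j, S ≤ d j) :
    Module.finrank ℂ (PKT (k + 1) S σ d (n + 1) (Fin.cons m0 tau)) ≤
      Module.finrank ℂ (PKT (k + 1) S σ d n (Fin.cons m0 tau)) +
        Module.finrank ℂ (UH (gQ tau m0 S (Finset.univ.val.map d) (n + 1))) := by
  have hfd : FiniteDimensional ℂ (UH (gQ tau m0 S (Finset.univ.val.map d) (n + 1))) :=
    fd_of _ fun v hv => ⟨hv.1, hv.2.1, hv.2.2.1⟩
  let p := PKT (k + 1) S σ d (n + 1) (Fin.cons m0 tau)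
  let L := (Lf k (σ ⊕ Fin (n + 1))).domRestrict p
  have h1 := LinearMap.finrank_range_add_finrank_ker L
  have h2 : Module.finrank ℂ (LinearMap.range L) ≤
      Module.finrank ℂ (UH (gQ tau m0 S (Finset.univ.val.map d) (n + 1))) := by
    apply Submodule.finrank_mono
    rintro _ ⟨f, rfl⟩
    exact Lf_mem hd f.2
  have h3 : Module.finrank ℂ (LinearMap.ker L) ≤
      Module.finrank ℂ (PKT (k + 1) S σ d n (Fin.cons m0 tau)) := by
    rw [← Submodule.finrank_map_subtype_eq p (LinearMap.ker L)]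
    refine le_trans (Submodule.finrank_mono (t := (PKT (k + 1) S σ d n
      (Fin.cons m0 tau)).map (up (k + 1) σ n)) ?_) (Submodule.finrank_map_le _ _)
    rintro _ ⟨f, hf, rfl⟩
    have hf0 : Lf k (σ ⊕ Fin (n + 1)) f.1 = 0 := hf
    have h4 := mem_dn f.2 (fun v hv => by
      by_contra hcon
      push Not at hcon
      have hfull : full v := by
        rintro (j | j)
        · rw [cs_inl f.2 hv j]
          have := hd j
          omega
        · obtain ⟨i, hi⟩ := hcon j
          intro h5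
          exact hi ((Finset.sum_eq_zero_iff.1 h5) i (Finset.mem_univ i))
      exact hv (Lf_zero hf0 (fun u w _ _ hu hw h => coeff_eq hd f.2 hu hw h) hfull))
    exact ⟨dn f.1, h4.1, h4.2⟩
  change Module.finrank ℂ p ≤ _
  omega

lemma steps (hS : 1 ≤ S) (hd : ∀ j, S ≤ d j) {n' : ℕ} (hn : n' ≤ n) :
    Module.finrank ℂ (PKT (k + 1) S σ d n (Fin.cons m0 tau)) ≤
      Module.finrank ℂ (PKT (k + 1) S σ d n' (Fin.cons m0 tau)) +
        ∑ t ∈ Finset.Ioc n' n,
          Module.finrank ℂ (UH (gQ tau m0 S (Finset.univ.val.map d) t)) := by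
  induction n, hn using Nat.le_induction with
  | base => simp
  | succ n hn ih =>
    rw [Finset.sum_Ioc_succ_top hn]
    have h1 := step (n := n) (m0 := m0) (tau := tau) hS hd
    omega

end pieces

/-- The large sizes are `kap`, more than `a` letters. -/
def gK (tau : Fin k → ℕ) (m0 S a : ℕ) (kap : Multiset ℕ) (v : Lt k →₀ ℕ) : Prop :=
  (∀ p ∈ v.support, 1 ≤ sz p) ∧ xs v = m0 ∧ (∀ i, us v i = tau i) ∧ big S v = kap ∧ a < ln v

lemma NT_le {a b m0 S : ℕ} {tau : Fin k → ℕ} (hS : 1 ≤ S) {kap : Multiset ℕ}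
    (hk : ∀ x ∈ kap, S ≤ x) (hab : a ≤ b) :
    NT (k + 1) S (Fin.cons m0 tau) kap (b - Multiset.card kap) ≤
      NT (k + 1) S (Fin.cons m0 tau) kap (a - Multiset.card kap) +
        Module.finrank ℂ (UH (gK tau m0 S a kap)) := by
  have hd : ∀ j : Fin kap.toList.length, S ≤ kap.toList.get j := fun j =>
    hk _ (Multiset.mem_toList.1 (List.get_mem _ _))
  have hfd : FiniteDimensional ℂ (UH (gK tau m0 S a kap)) :=
    fd_of _ fun v hv => ⟨hv.1, hv.2.1, hv.2.2.1⟩
  have h1 := steps (n := b - Multiset.card kap) (n' := a - Multiset.card kap) (m0 := m0)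
    (tau := tau) hS hd (by omega)
  rw [Vale.Agent.P181.DGx.H831.map_get kap] at h1
  refine h1.trans (Nat.add_le_add_left ?_ _)
  apply UH_sum (gQ tau m0 S kap) hfd
  · rintro t ht v ⟨k1, k2, k3, k4, k5⟩
    refine ⟨k1, k2, k3, k4, ?_⟩
    rw [Finset.mem_Ioc] at ht
    omega
  · intro x _ y _ hxy v hx hy
    apply hxy
    have h2 := hx.2.2.2.2
    have h3 := hy.2.2.2.2
    omega

/-- **[Q6a]** -/
theorem q6a : Q6a := by
  classical
  intro k a b m0 w tau ha hab hw h3
  have hmu : ∑ i, (Fin.cons m0 tau : Fin (k + 1) → ℕ) i = w := by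
    rw [Fin.sum_univ_succ, Fin.cons_zero, hw]
    simp only [Fin.cons_succ]
  have hfd : FiniteDimensional ℂ (UH (gSrc tau a b m0)) :=
    fd_of _ fun v hv => ⟨hv.1, hv.2.1, hv.2.2.1⟩
  rcases Nat.lt_or_ge b w with hbw | hbw
  · -- the four estimates
    have e1 := Vale.Agent.P181.DG2.H398.upT b w (k + 1) (b + 1) (Fin.cons m0 tau) (by omega)
    have e2 := Vale.Agent.P181.DU.H556.lowU w a (k + 1) (b + 1) (Fin.cons m0 tau) (by omega)
      (by omega) (by rw [hmu, Nat.add_sub_cancel]; omega)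
    have e3 := Vale.Agent.P181.DU.H556.lowU b b (k + 1) (b + 1) (Fin.cons m0 tau) (by omega)
      (by omega) (by
        rw [hmu, Nat.add_sub_cancel]
        have : a * b ≤ b * b := Nat.mul_le_mul_right b hab.le
        omega)
    have e4 := Vale.Agent.P181.DG2.H398.upT a b (k + 1) (b + 1) (Fin.cons m0 tau) (by omega)
    rw [hmu] at e1 e2 e3 e4
    have hKT : ∀ kap, kap ∈ KT w (b + 1) ↔ kap.sum ≤ w ∧ ∀ x ∈ kap, b + 1 ≤ x := fun kap =>
      Vale.Agent.P181.DG7.mem_KT (by omega)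
    have h0 : (0 : Multiset ℕ) ∈ KT w (b + 1) := by
      rw [hKT]
      simp
    -- small contents
    have hz : ∀ kap : Multiset ℕ, kap ∈ KT w (b + 1) → (∀ x ∈ kap, x ≤ b) → kap = 0 := by
      intro kap hk hx
      rw [Multiset.eq_zero_iff_forall_notMem]
      intro x hxk
      have h4 := ((hKT kap).1 hk).2 x hxk
      have h5 := hx x hxk
      omega
    have f3 : (KT w (b + 1)).filter (fun k => Multiset.card k ≤ b ∧ ∀ x ∈ k, x ≤ b) = {0} := by
      ext kap
      rw [Finset.mem_filter, Finset.mem_singleton]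
      constructor
      · exact fun h => hz kap h.1 h.2.2
      · rintro rfl
        exact ⟨h0, by simp⟩
    have f4 : (KT w (b + 1)).filter (fun k => Multiset.card k ≤ a ∧ ∀ x ∈ k, x ≤ b) = {0} := by
      ext kap
      rw [Finset.mem_filter, Finset.mem_singleton]
      constructor
      · exact fun h => hz kap h.1 h.2.2
      · rintro rfl
        exact ⟨h0, by simp⟩
    have hcard : ∀ kap ∈ KT w (b + 1), Multiset.card kap ≤ a ∧ ∀ x ∈ kap, x ≤ w := by
      intro kap hk
      obtain ⟨h4, h5⟩ := (hKT kap).1 hk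
      have h6 : Multiset.card kap * (b + 1) ≤ kap.sum := by
        have h7 := Multiset.card_nsmul_le_sum (s := kap) (a := b + 1) h5
        rwa [smul_eq_mul] at h7
      refine ⟨?_, fun x hx => (Multiset.single_le_sum (fun _ _ => Nat.zero_le _) x hx).trans h4⟩
      by_contra hcon
      have h8 : (a + 1) * (b + 1) ≤ Multiset.card kap * (b + 1) :=
        Nat.mul_le_mul_right _ (by omega)
      nlinarith
    have f1 : (KT w (b + 1)).filter (fun k => Multiset.card k ≤ b ∧ ∀ x ∈ k, x ≤ w) =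
        KT w (b + 1) := by
      rw [Finset.filter_eq_self]
      intro kap hk
      have := hcard kap hk
      exact ⟨by omega, this.2⟩
    have f2 : (KT w (b + 1)).filter (fun k => Multiset.card k ≤ a ∧ ∀ x ∈ k, x ≤ w) =
        KT w (b + 1) := by
      rw [Finset.filter_eq_self]
      intro kap hk
      exact hcard kap hk
    rw [f1, ← Finset.add_sum_erase _ _ h0] at e1
    rw [f2, ← Finset.add_sum_erase _ _ h0] at e2
    rw [f3, Finset.sum_singleton] at e3
    rw [f4, Finset.sum_singleton] at e4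
    have h5 : ∑ kap ∈ (KT w (b + 1)).erase 0,
        NT (k + 1) (b + 1) (Fin.cons m0 tau) kap (b - Multiset.card kap) ≤
        ∑ kap ∈ (KT w (b + 1)).erase 0,
          NT (k + 1) (b + 1) (Fin.cons m0 tau) kap (a - Multiset.card kap) +
        ∑ kap ∈ (KT w (b + 1)).erase 0, Module.finrank ℂ (UH (gK tau m0 (b + 1) a kap)) := by
      rw [← Finset.sum_add_distrib]
      apply Finset.sum_le_sum
      intro kap hk
      exact NT_le (by omega) ((hKT kap).1 (Finset.mem_of_mem_erase hk)).2 hab.le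
    have h6 : ∑ kap ∈ (KT w (b + 1)).erase 0, Module.finrank ℂ (UH (gK tau m0 (b + 1) a kap)) ≤
        Module.finrank ℂ (UH (gSrc tau a b m0)) := by
      apply UH_sum (gK tau m0 (b + 1) a) hfd
      · rintro kap hk v ⟨k1, k2, k3, k4, k5⟩
        refine ⟨k1, k2, k3, ?_, k5⟩
        obtain ⟨x, hx⟩ := Multiset.exists_mem_of_ne_zero (Finset.ne_of_mem_erase hk)
        rw [← k4] at hx
        obtain ⟨h7, h8⟩ := Multiset.mem_filter.1 hx
        obtain ⟨p, hp, rfl⟩ := Multiset.mem_map.1 h7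
        exact ⟨p, (Finsupp.mem_toMultiset _ _).1 hp, h8⟩
      · intro x _ y _ hxy v hx hy
        exact hxy (hx.2.2.2.1.symm.trans hy.2.2.2.1)
    unfold T
    omega
  · -- no letter can be larger than b
    have h1 : TI b w (k + 1) (Fin.cons m0 tau) ≤ TI b b (k + 1) (Fin.cons m0 tau) := by
      intro f hf
      obtain ⟨k1, k2, k3, k4⟩ := mem_TI.1 hf
      exact mem_TI.2 ⟨k1, k2, fun v hv j => (k3 v hv j).trans hbw, k4⟩
    have h2 : TI a b (k + 1) (Fin.cons m0 tau) ≤ TI a w (k + 1) (Fin.cons m0 tau) := by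
      intro f hf
      obtain ⟨k1, k2, k3, k4⟩ := mem_TI.1 hf
      refine mem_TI.2 ⟨k1, k2, fun v hv j => ?_, k4⟩
      calc ∑ i, v (i, j) ≤ ∑ i, ∑ j, v (i, j) :=
            Finset.sum_le_sum fun i _ =>
              Finset.single_le_sum (f := fun j => v (i, j)) (fun _ _ => Nat.zero_le _)
                (Finset.mem_univ j)
        _ = ∑ i, (Fin.cons m0 tau : Fin (k + 1) → ℕ) i :=
            Finset.sum_congr rfl fun i _ => (mem_HW.1 k1).1 v hv i
        _ = w := hmu
    have h4 := Submodule.finrank_mono h1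
    have h5 := Submodule.finrank_mono h2
    unfold T
    omega

end Vale.Agent.P181.GN.H317
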